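import Mathlib.Algebra.AffineMonoid.Basic
import Mathlib.Algebra.AffineMonoid.UniqueSums
import Mathlib.Algebra.Algebra.Hom.Rat
import Mathlib.Algebra.GroupWithZero.Pointwise.Finset
import Mathlib.Algebra.MvPolynomial.Comap
import Mathlib.Algebra.MvPolynomial.Funext
import Mathlib.Algebra.Order.Ring.Star
import Mathlib.Algebra.Ring.IsFormallyReal
import Mathlib.Data.Finset.MulAntidiagonal
import Mathlib.Data.Finsupp.Interval
import Mathlib.FieldTheory.FinTrdeg
import Mathlib.NumberTheory.Dioph
import Mathlib.Order.CompletePartialOrder
import Mathlib.RingTheory.Congruence.Hom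
import Mathlib.RingTheory.Derivation.Lie
import Mathlib.RingTheory.Flat.TorsionFree
import Mathlib.RingTheory.GradedAlgebra.Radical
import Mathlib.RingTheory.Henselian
import Mathlib.RingTheory.MvPolynomial.Ideal
import Mathlib.RingTheory.MvPolynomial.IrreducibleQuadratic
import Mathlib.RingTheory.PicardGroup
import Mathlib.RingTheory.RegularLocalRing.Defs
import Mathlib.RingTheory.SimpleRing.Principal
import Mathlib.RingTheory.TotallySplit
import Mathlib.Tactic

/-! The part of Mathlib that the development of this folder uses. -/
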